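-- RD-BASE 8047da7a7ff82b817d380eb0fb7165fcd3f4920e
import Vale.Agent.P028.RD.H530.Delta
import Vale.Agent.P028.H383.ColRG
attribute [-instance] ProperSMul.toContinuousSMul IsTopologicalTorsor.toContinuousSMul IdemSemiring.toCanonicallyOrderedAdd IdemSemiring.toMulLeftMono IdemSemiring.toMulRightMono AddQuantale.instAddLeftMono AddQuantale.instAddRightMono Quantale.instMulLeftMono Quantale.instMulRightMono FiniteDimensional.rclike_to_real IsScalarTower.complexToReal FiniteDimensional.complexToReal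

/-!
# The gaps between the candidates, in terms of numbers

A place of positive dilution after a deviation: the primes differ by a large factor.
-/

namespace Vale.P028.SK

open Finset CF RN H669 RK

variable {g : Cfg}

/-- the masses are at most `1 / (c1 p)` at the primes, `0` at the other places -/
theorem muw_le_inv {c1 : ℝ} (h1 : 0 < c1) (q j : ℕ) :
    muw g c1 q j ≤ if (N g - j).Prime then 1 / (c1 * ((N g - j : ℕ) : ℝ)) else 0 := by
  have h2 := hn_le_hw (g := g) q j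
  unfold muw
  unfold hw at h2
  split_ifs at h2 with h3
  · rw [if_pos (mem_PO.1 (Qc_prime h3).1).1, div_le_iff₀ h1]
    refine h2.trans (le_of_eq ?_)
    have h4 : ((N g - j : ℕ) : ℝ) ≠ 0 := by
      exact_mod_cast (mem_PO.1 (Qc_prime h3).1).1.ne_zero
    field_simp
  · have h4 : hn g q j / c1 ≤ 0 := div_nonpos_of_nonpos_of_nonneg h2 h1.le
    refine h4.trans ?_
    split_ifs
    · positivity
    · exact le_rfl

/-- **(GAP)** a place `a'` of positive dilution after a deviation `a` in the same phase: the prime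
of `a` is more than `Λ` times the prime of `a'` -/
theorem gap_w {c1 Λ : ℝ} (h1 : 0 < c1) (hΛ : 0 ≤ Λ) (hz1 : 1 < (zs g : ℝ))
    (hz2 : Λ * Real.log 4 / Real.log (zs g) ≤ c1) {y s e a a' : ℕ} (hs : s ≤ a) (ha : a < a')
    (ha' : a' < N g - zs g) (hu : uw g y a = true)
    (hov : 0 < ov (muw g c1 y) (uw g y) s e a') :
    Λ * ((N g - a' : ℕ) : ℝ) < ((N g - a : ℕ) : ℝ) := by
  refine gap_ratio (μ := muw g c1 y) h1 hΛ (fun j _ => muw_le_inv h1 y j) hz1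
    (by exact_mod_cast (by omega : zs g ≤ N g - a')) hz2 ?_
  exact gap_of_ov (muw_nonneg h1.le y) hs ha hu hov

/-- **(GAP)**, for the weights `w ^ (-ε)` -/
theorem gap_rpow {c1 ε : ℝ} (h1 : 0 < c1) (hε : 0 < ε) (hz1 : 1 < (zs g : ℝ))
    (hz2 : (2 : ℝ) ^ (1 / ε) * Real.log 4 / Real.log (zs g) ≤ c1) {y s e a a' : ℕ} (hs : s ≤ a)
    (ha : a < a') (ha' : a' < N g - zs g) (hu : uw g y a = true)
    (hov : 0 < ov (muw g c1 y) (uw g y) s e a') :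
    ((N g - a : ℕ) : ℝ) ^ (-ε) ≤ 1 / 2 * ((N g - a' : ℕ) : ℝ) ^ (-ε) := by
  have h2 := gap_w h1 (Real.rpow_pos_of_pos two_pos (1 / ε)).le hz1 hz2 hs ha ha' hu hov
  have h3 : (0 : ℝ) < ((N g - a' : ℕ) : ℝ) := by
    exact_mod_cast (by omega : 0 < N g - a')
  have h4 : (0 : ℝ) < (2 : ℝ) ^ (1 / ε) := Real.rpow_pos_of_pos two_pos _
  have h5 : ((N g - a : ℕ) : ℝ) ^ (-ε) ≤ ((2 : ℝ) ^ (1 / ε) * ((N g - a' : ℕ) : ℝ)) ^ (-ε) :=
    Real.rpow_le_rpow_of_nonpos (mul_pos h4 h3) h2.le (by linarith)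
  rw [Real.mul_rpow h4.le h3.le, ← Real.rpow_mul two_pos.le] at h5
  have e1 : 1 / ε * -ε = -1 := by field_simp
  rw [e1, Real.rpow_neg_one] at h5
  rw [one_div]
  exact h5

/-- the numbers needed for `gap_rpow` -/
def GapOK (c1 ε : ℝ) (g : Cfg) : Prop :=
  1 < (zs g : ℝ) ∧ (2 : ℝ) ^ (1 / ε) * Real.log 4 / Real.log (zs g) ≤ c1

theorem GapOK_of_le {c1 ε : ℝ} (h1 : 0 < c1)
    (hz : Real.exp ((2 : ℝ) ^ (1 / ε) * Real.log 4 / c1) ≤ zs g) : GapOK c1 ε g := by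
  have h4 : 0 < (2 : ℝ) ^ (1 / ε) * Real.log 4 / c1 := by
    have := Real.log_pos (show (1 : ℝ) < 4 by norm_num)
    positivity
  have h2 : 1 < (zs g : ℝ) := lt_of_lt_of_le (Real.one_lt_exp_iff.2 h4) hz
  refine ⟨h2, ?_⟩
  have h3 : (2 : ℝ) ^ (1 / ε) * Real.log 4 / c1 ≤ Real.log (zs g) := by
    rw [Real.le_log_iff_exp_le (by linarith)]
    exact hz
  rw [div_le_iff₀ h1] at h3
  rw [div_le_iff₀ (Real.log_pos h2)]
  linarith

/-- the numbers of `gap_rpow` are eventually right -/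
theorem ev_GapOK {c1 : ℝ} (h1 : 0 < c1) (ε : ℝ) :
    Ev (fun K Js => ∀ g : Cfg, g.K = K → g.Js = Js → GapOK c1 ε g) := by
  refine Ev.of_eventually fun K =>
    ⟨max 1 (Real.exp ((2 : ℝ) ^ (1 / ε) * Real.log 4 / c1) + 1), fun Js hJs g hK hJ => ?_⟩
  refine GapOK_of_le h1 ?_
  have h1 : 1 ≤ Js := (le_max_left _ _).trans hJs
  have h2 := (le_max_right _ _).trans hJs
  have h3 : Js ≤ (max 1 g.Js) ^ g.K.C2 := by
    rw [hJ, max_eq_right h1]
    calc Js = Js ^ (1 : ℝ) := (Real.rpow_one _).symm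
      _ ≤ _ := Real.rpow_le_rpow_of_exponent_le h1 g.K.C2_ge
  have h4 := Nat.lt_floor_add_one ((max 1 g.Js) ^ g.K.C2)
  have h5 : (zs g : ℝ) = (⌊(max 1 g.Js) ^ g.K.C2⌋₊ : ℝ) := rfl
  linarith

theorem gap_rpow' {c1 ε : ℝ} (h1 : 0 < c1) (hε : 0 < ε) (hg : GapOK c1 ε g) {y s e a a' : ℕ}
    (hs : s ≤ a) (ha : a < a') (ha' : a' < N g - zs g) (hu : uw g y a = true)
    (hov : 0 < ov (muw g c1 y) (uw g y) s e a') :
    2 * ((N g - a : ℕ) : ℝ) ^ (-ε) ≤ ((N g - a' : ℕ) : ℝ) ^ (-ε) := by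
  have := gap_rpow h1 hε hg.1 hg.2 hs ha ha' hu hov
  linarith

/-- the gap in terms of the dilution: `y` deviates at `a`, `dd` is not `0` at `a' > a`, and no
phase of `y` begins in `(a, a']` -/
theorem gap_dd {c1 c ε : ℝ} (h1 : 0 < c1) (hε : 0 < ε) (hg : GapOK c1 ε g) {y a a' : ℕ}
    (ha : a < a') (ha' : a' < N g - zs g) (hu : uw g y a = true)
    (hd : dd g c1 c y (N g - a') ≠ 0) (hno : ∀ t ∈ NwP g y, t ≤ a' → t ≤ a) :
    2 * ((N g - a : ℕ) : ℝ) ^ (-ε) ≤ ((N g - a' : ℕ) : ℝ) ^ (-ε) := by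
  obtain ⟨s, hs, -, hs2, -, -, hov, -⟩ := dd_ne hd (by omega : a' < N g)
  exact gap_rpow' h1 hε hg (hno s hs hs2) ha ha' hu hov

end Vale.P028.SK

namespace Vale.P028.H669

open Finset

/-- **(5')** the primes `> max(z, (log D) ^ (3/2))` of a number `D`: the sum of their
`(-4/5)`-th powers is at most `1 / 16` -/
theorem sum_dvd_rpow {D : ℕ} {z : ℝ} (hD : 1 ≤ D) (hz : (2 : ℝ) ^ 30 ≤ z) (S : Finset ℕ)
    (hS : ∀ w ∈ S, w.Prime ∧ w ∣ D ∧ z ≤ (w : ℝ) ∧ Real.log D ^ (3 / 2 : ℝ) ≤ (w : ℝ)) :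
    ∑ w ∈ S, (w : ℝ) ^ (-(4 / 5 : ℝ)) ≤ 1 / 16 := by
  set L := Real.log D with hL
  have hL0 : 0 ≤ L := Real.log_nonneg (by exact_mod_cast hD)
  set M : ℝ := max z (L ^ (3 / 2 : ℝ)) with hM
  have hzM : z ≤ M := le_max_left _ _
  have hM30 : (2 : ℝ) ^ 30 ≤ M := hz.trans hzM
  have hM0 : 0 < M := lt_of_lt_of_le (by positivity) hM30
  have hwM : ∀ w ∈ S, M ≤ (w : ℝ) := fun w hw => max_le (hS w hw).2.2.1 (hS w hw).2.2.2
  have hM1 : 1 ≤ Real.log M := by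
    rw [Real.le_log_iff_exp_le hM0]
    have := Real.exp_one_lt_d9
    linarith
  -- the number of the primes
  have hcard : (S.card : ℝ) ≤ L := by
    have h1 : ∏ w ∈ S, w ∣ D := by
      refine Finset.prod_primes_dvd D (fun w hw => (hS w hw).1.prime) fun w hw => (hS w hw).2.1
    have h2 : (∏ w ∈ S, (w : ℝ)) ≤ D := by
      have := Nat.le_of_dvd (by omega) h1
      have h4 : ((∏ w ∈ S, w : ℕ) : ℝ) ≤ D := by exact_mod_cast this
      rwa [Nat.cast_prod] at h4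
    have h3 : Real.log (∏ w ∈ S, (w : ℝ)) ≤ L := by
      refine Real.log_le_log (prod_pos fun w hw => ?_) h2
      exact lt_of_lt_of_le hM0 (hwM w hw)
    rw [Real.log_prod (fun w hw => (lt_of_lt_of_le hM0 (hwM w hw)).ne')] at h3
    calc (S.card : ℝ) = ∑ w ∈ S, (1 : ℝ) := by rw [sum_const, nsmul_eq_mul, mul_one]
      _ ≤ ∑ w ∈ S, Real.log (w : ℝ) := sum_le_sum fun w hw =>
          hM1.trans (Real.log_le_log hM0 (hwM w hw))
      _ ≤ L := h3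
  have hLM : L ≤ M ^ (2 / 3 : ℝ) := by
    calc L = (L ^ (3 / 2 : ℝ)) ^ (2 / 3 : ℝ) := by
          rw [← Real.rpow_mul hL0]
          norm_num
      _ ≤ M ^ (2 / 3 : ℝ) := Real.rpow_le_rpow (Real.rpow_nonneg hL0 _) (le_max_right _ _)
          (by norm_num)
  calc ∑ w ∈ S, (w : ℝ) ^ (-(4 / 5 : ℝ)) ≤ ∑ w ∈ S, M ^ (-(4 / 5 : ℝ)) :=
        sum_le_sum fun w hw => Real.rpow_le_rpow_of_nonpos hM0 (hwM w hw) (by norm_num)
    _ = S.card * M ^ (-(4 / 5 : ℝ)) := by rw [sum_const, nsmul_eq_mul]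
    _ ≤ M ^ (2 / 3 : ℝ) * M ^ (-(4 / 5 : ℝ)) :=
        mul_le_mul_of_nonneg_right (hcard.trans hLM) (Real.rpow_nonneg hM0.le _)
    _ = M ^ (-(2 / 15 : ℝ)) := by
        rw [← Real.rpow_add hM0]
        norm_num
    _ ≤ ((2 : ℝ) ^ 30) ^ (-(2 / 15 : ℝ)) :=
        Real.rpow_le_rpow_of_nonpos (by positivity) hM30 (by norm_num)
    _ = 1 / 16 := by
        rw [← Real.rpow_natCast (2 : ℝ) 30, ← Real.rpow_mul two_pos.le]
        norm_num

/-- (5'), with exponents `≤ -4/5` -/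
theorem sum_dvd_rpow' {D : ℕ} {z θ : ℝ} (hD : 1 ≤ D) (hz : (2 : ℝ) ^ 30 ≤ z) (hθ : 4 / 5 ≤ θ)
    (S : Finset ℕ)
    (hS : ∀ w ∈ S, w.Prime ∧ w ∣ D ∧ z ≤ (w : ℝ) ∧ Real.log D ^ (3 / 2 : ℝ) ≤ (w : ℝ)) :
    ∑ w ∈ S, (w : ℝ) ^ (-θ) ≤ 1 / 16 := by
  refine (sum_le_sum fun w hw => ?_).trans (sum_dvd_rpow hD hz S hS)
  refine Real.rpow_le_rpow_of_exponent_le ?_ (by linarith)
  exact_mod_cast (hS w hw).1.one_lt.le

end Vale.P028.H669
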