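-- RD-BASE d3c9e74da00a8a41e3a83c571bfa898db1fb6a52
import Vale.Agent.P028.MathlibUsed
import Vale.Agent.P028.RD.FQ.LkTerm
import Vale.Agent.P028.RD.H383.LkEng
import Vale.Agent.P028.RD.R226.World
import Vale.Agent.P028.RD.R226.LkMass
import Vale.Agent.P028.RD.H758.RInv
attribute [-instance] ProperSMul.toContinuousSMul IsTopologicalTorsor.toContinuousSMul IdemSemiring.toCanonicallyOrderedAdd IdemSemiring.toMulLeftMono IdemSemiring.toMulRightMono AddQuantale.instAddLeftMono AddQuantale.instAddRightMono Quantale.instMulLeftMono Quantale.instMulRightMono FiniteDimensional.rclike_to_real IsScalarTower.complexToReal FiniteDimensional.complexToReal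

/-!
# Leaks: the energy of two groups as an energy of the inner parts
-/

namespace Vale.P028.SK

open Finset CF

variable {g : Cfg}

/-- the pairs of inner cofactors of a leak class between two groups -/
def LkOm (g : Cfg) (i s : ℕ) (Gq Gr : Finset ℕ) (a b : ℕ) : Prop :=
  ∃ q ∈ Gq, ∃ r ∈ Gr, ∃ n ∈ Sh g q r, LkC g i s q r n ∧
    cofac (inn g s q) (inn g s r) = a ∧ cofac (inn g s r) (inn g s q) = b

theorem ro_of_RgA (hV : g.V ⊆ Icc 1 (N g)) {s x q q' : ℕ} (hx : z g s ≤ x) (hq : q ∈ g.V)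
    (hq' : q' ∈ g.V) (h : Rg g s q' = Rg g s q) : ro x q' = ro x q := by
  have hq1 := mem_Icc.1 (hV hq)
  have hq1' := mem_Icc.1 (hV hq')
  unfold ro
  have e : q'.primeFactors.filter (fun p => x < p) = q.primeFactors.filter (fun p => x < p) := by
    ext p
    simp only [mem_filter]
    constructor
    · rintro ⟨h1, h2⟩
      refine ⟨?_, h2⟩
      rw [← Nat.support_factorization, Finsupp.mem_support_iff] at h1 ⊢
      rw [← fac_of_Rg hV hq hq' h (lt_of_le_of_lt hx h2)]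
      exact h1
    · rintro ⟨h1, h2⟩
      refine ⟨?_, h2⟩
      rw [← Nat.support_factorization, Finsupp.mem_support_iff] at h1 ⊢
      rw [fac_of_Rg hV hq hq' h (lt_of_le_of_lt hx h2)]
      exact h1
  rw [e]

/-- the rough parts of the reduced cofactors are constant on the groups -/
theorem lk_rgh_eq (hV : g.V ⊆ Icc 1 (N g)) {i s q r q₁ r₁ : ℕ} (hz : zs g ≤ z g i)
    (hs : z g s ≤ z g i) (hq : q ∈ g.V) (hr : r ∈ g.V) (hc : Clean g (z g i) q r)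
    (hq₁ : q₁ ∈ g.V) (hr₁ : r₁ ∈ g.V) (hc₁ : Clean g (z g i) q₁ r₁)
    (h1 : Rg g s q = Rg g s q₁) (h2 : Rg g s r = Rg g s r₁) :
    M g i q = M g i q₁ ∧ M g i r = M g i r₁ ∧
    rgh (z g s) (rcof (z g i) (N g) (kc g q) q r) =
      rgh (z g s) (rcof (z g i) (N g) (kc g q₁) q₁ r₁) ∧
    rgh (z g s) (rcof (z g i) (N g) (kc g q) r q) =
      rgh (z g s) (rcof (z g i) (N g) (kc g q₁) r₁ q₁) := by
  have e1 := Rg_eq_of_le (g := g) hs h1
  have e2 := Rg_eq_of_le (g := g) hs h2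
  have m1 : M g i q = M g i q₁ := M_of_Rg hV hq₁ hq e1
  have m2 : M g i r = M g i r₁ := M_of_Rg hV hr₁ hr e2
  obtain ⟨a1, a2⟩ := cofac_Rg_eq hV hz hs hq hr hc
  obtain ⟨b1, b2⟩ := cofac_Rg_eq hV hz hs hq₁ hr₁ hc₁
  rw [h1, h2, m2, b1] at a1
  rw [h1, h2, m1, b2] at a2
  exact ⟨m1, m2, (Nat.eq_of_mul_eq_mul_left (M_pos g i r₁) a1).symm,
    (Nat.eq_of_mul_eq_mul_left (M_pos g i q₁) a2).symm⟩

/-- the triples of a leak class are determined by the pair once the fractions are fixed -/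
theorem lk_n_eq {i s q r : ℕ} {n : ℤ} {F G : ℚ} (his : i < s) (hF : Un g i s q F)
    (hG : Un g i s r G) (h : Al g i q r n) :
    (n : ℚ) + F * ((cofac r q : ℤ) : ℚ) - G * ((cofac q r : ℤ) : ℚ) = 0 := by
  obtain ⟨F', b, G', b', h1, h2, h3⟩ := h
  obtain ⟨c, hc⟩ := hF i le_rfl his
  obtain ⟨c', hc'⟩ := hG i le_rfl his
  rw [hc, Option.some.injEq, Prod.mk.injEq] at h1
  rw [hc', Option.some.injEq, Prod.mk.injEq] at h2
  rw [h1.1, h2.1]
  exact h3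

theorem lk_n_unique {i s q r : ℕ} {n n' : ℤ} {F G : ℚ} (his : i < s) (hF : Un g i s q F)
    (hG : Un g i s r G) (h : Al g i q r n) (h' : Al g i q r n') : n = n' := by
  have e1 := lk_n_eq his hF hG h
  have e2 := lk_n_eq his hF hG h'
  have e3 : (n : ℚ) = n' := by linarith
  exact_mod_cast e3

/-- the facts about the pairs of inner cofactors of a leak class between two groups -/
theorem lkOm_spec (hJ : JsOK g.K g.Js) (hX : g.Js ≤ g.X) (hV : g.V ⊆ Icc 1 (N g)) {i s : ℕ}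
    (his : i < s) {Gq Gr : Finset ℕ} {R R' : ℕ} {F G : ℚ}
    (hGq : ∀ q ∈ Gq, q ∈ g.V ∧ Rg g s q = R ∧ Un g i s q F)
    (hGr : ∀ r ∈ Gr, r ∈ g.V ∧ Rg g s r = R' ∧ Un g i s r G)
    {q₁ r₁ : ℕ} {n₁ : ℤ} (hq₁ : q₁ ∈ Gq) (hr₁ : r₁ ∈ Gr) (hL₁ : LkC g i s q₁ r₁ n₁)
    {a b : ℕ} (h : LkOm g i s Gq Gr a b) :
    PComp (PZ (z g s)) (a * b) ∧ ∃ q ∈ Gq, ∃ r ∈ Gr, ∃ n ∈ Sh g q r, LkC g i s q r n ∧
      (n : ℚ) + F * ((cofac r q : ℤ) : ℚ) - G * ((cofac q r : ℤ) : ℚ) = 0 ∧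
      M g i q = M g i q₁ ∧ M g i r = M g i r₁ ∧
      rcof (z g i) (N g) (kc g q) q r =
        rgh (z g s) (rcof (z g i) (N g) (kc g q₁) q₁ r₁) * a ∧
      rcof (z g i) (N g) (kc g q) r q =
        rgh (z g s) (rcof (z g i) (N g) (kc g q₁) r₁ q₁) * b ∧
      cofac q r = (M g i r * rgh (z g s) (rcof (z g i) (N g) (kc g q₁) q₁ r₁)) * a ∧
      cofac r q = (M g i q * rgh (z g s) (rcof (z g i) (N g) (kc g q₁) r₁ q₁)) * b := by
  obtain ⟨q, hq, r, hr, n, hn, hL, ha, hb⟩ := h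
  obtain ⟨hqV, hqR, hqU⟩ := hGq q hq
  obtain ⟨hrV, hrR, hrU⟩ := hGr r hr
  obtain ⟨hq₁V, hq₁R, -⟩ := hGq q₁ hq₁
  obtain ⟨hr₁V, hr₁R, -⟩ := hGr r₁ hr₁
  have hz : zs g ≤ z g i := zs_le_z hJ hX i
  have hs : z g s ≤ z g i := z_anti g his.le
  have hq0 : 0 < q := (mem_Icc.1 (hV hqV)).1
  have hr0 : 0 < r := (mem_Icc.1 (hV hrV)).1
  have hsm := inn_smooth hV (s := s) hqV hrV
  rw [ha, hb] at hsm
  obtain ⟨m1, m2, g1, g2⟩ := lk_rgh_eq hV hz hs hqV hrV hL.1.2.2.1 hq₁V hr₁V hL₁.1.2.2.1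
    (hqR.trans hq₁R.symm) (hrR.trans hr₁R.symm)
  obtain ⟨c1, c2⟩ := cofac_Rg_eq hV hz hs hqV hrV hL.1.2.2.1
  have d1 := cofac_split (g := g) (s := s) hq0 hr0
  have d2 := cofac_split (g := g) (s := s) hr0 hq0
  rw [c1, g1, ha] at d1
  rw [c2, g2, hb] at d2
  obtain ⟨e1, e2, -, -, -⟩ := clean_cofac hV hz hqV hrV hL.1.2.2.1
  refine ⟨hsm, q, hq, r, hr, n, hn, hL, lk_n_eq his hqU hrU hL.1.1, m1, m2, ?_, ?_, d1, d2⟩
  · have e3 := e1.symm.trans d1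
    rw [mul_assoc] at e3
    exact Nat.eq_of_mul_eq_mul_left (M_pos g i r) e3
  · have e3 := e2.symm.trans d2
    rw [mul_assoc] at e3
    exact Nat.eq_of_mul_eq_mul_left (M_pos g i q) e3

open Classical in
/-- **The left side of the group bound.** -/
theorem lk_left : ∃ C > 0, ∀ g : Cfg, Real.exp 1 ≤ g.K.P.ρ0 ^ (-g.K.P.c0) → JsOK g.K g.Js →
    g.Js ≤ g.X → g.V ⊆ Icc 1 (N g) → ∀ i s : ℕ, i < s →
    ∀ (Gq Gr : Finset ℕ) (R R' : ℕ) (F G : ℚ), Gq ⊆ V1 g → Gr ⊆ V1 g →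
    (∀ q ∈ Gq, Rg g s q = R ∧ Un g i s q F) → (∀ r ∈ Gr, Rg g s r = R' ∧ Un g i s r G) →
    ∀ q₁ ∈ Gq, ∀ r₁ ∈ Gr, ∀ n₁, LkC g i s q₁ r₁ n₁ →
    ∑ q ∈ Gq, ∑ r ∈ Gr.erase q, f g q * f g r / Dl g q r *
      ∑ n ∈ (Sh g q r).filter (fun n => LkC g i s q r n), Kd g (fun _ _ => 0) q r n ≤
    C * (NT.Gn (rgh (z g s) (rcof (z g i) (N g) (kc g q₁) q₁ r₁)) *
        NT.Gn (rgh (z g s) (rcof (z g i) (N g) (kc g q₁) r₁ q₁))) *
      Real.sqrt (ro (z g i) q₁ * ro (z g i) r₁) * Real.sqrt (ro (z g s) q₁ * ro (z g s) r₁) *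
      ((1 + Real.log (z g s)) ^ 3 *
        (1 / (((M g i r₁ : ℝ) * (rgh (z g s) (rcof (z g i) (N g) (kc g q₁) q₁ r₁) : ℕ)) *
          ((M g i q₁ : ℝ) * (rgh (z g s) (rcof (z g i) (N g) (kc g q₁) r₁ q₁) : ℕ))) *
        eng (LkOm g i s Gq Gr) (N g)
          (fun x => (M g i q₁ : ℝ) * (rgh (z g s) (rcof (z g i) (N g) (kc g q₁) r₁ q₁) : ℕ) *
            ψ g (R * x))
          (fun y => (M g i r₁ : ℝ) * (rgh (z g s) (rcof (z g i) (N g) (kc g q₁) q₁ r₁) : ℕ) *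
            ψ g (R' * y))
          (fun x => (M g i q₁ : ℝ) * (rgh (z g s) (rcof (z g i) (N g) (kc g q₁) r₁ q₁) : ℕ) *
            (if R * x ∈ Gq then ft g s (R * x) else 0))
          (fun y => (M g i r₁ : ℝ) * (rgh (z g s) (rcof (z g i) (N g) (kc g q₁) q₁ r₁) : ℕ) *
            (if R' * y ∈ Gr then ft g s (R' * y) else 0)))) := by
  obtain ⟨C, hC, hT⟩ := term_leak
  refine ⟨C, hC, ?_⟩
  intro g hρ hJ hX hV i s his Gq Gr R R' F G hGq1 hGr1 hGq hGr q₁ hq₁ r₁ hr₁ n₁ hL₁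
  have hz : zs g ≤ z g i := zs_le_z hJ hX i
  have hs : z g s ≤ z g i := z_anti g his.le
  have hX1 : 1 ≤ g.X := by linarith [hJ.1]
  have hVq : ∀ q ∈ Gq, q ∈ g.V := fun q hq => V1_mem (hGq1 hq)
  have hVr : ∀ r ∈ Gr, r ∈ g.V := fun r hr => V1_mem (hGr1 hr)
  set al := rgh (z g s) (rcof (z g i) (N g) (kc g q₁) q₁ r₁) with hal
  set be := rgh (z g s) (rcof (z g i) (N g) (kc g q₁) r₁ q₁) with hbe
  have hRpos : 0 < R := by rw [← (hGq q₁ hq₁).1]; exact Rg_pos _ _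
  have hR'pos : 0 < R' := by rw [← (hGr r₁ hr₁).1]; exact Rg_pos _ _
  set B : ℝ := C * (1 + Real.log (z g s)) ^ 3 * (NT.Gn al * NT.Gn be) *
    Real.sqrt (ro (z g i) q₁ * ro (z g i) r₁) * Real.sqrt (ro (z g s) q₁ * ro (z g s) r₁) with hB
  have hlog : 0 ≤ Real.log (z g s) := Real.log_natCast_nonneg _
  have hB0 : 0 ≤ B := by
    have h1 : 0 ≤ NT.Gn al := le_trans zero_le_one (one_le_Gn _)
    have h2 : 0 ≤ NT.Gn be := le_trans zero_le_one (one_le_Gn _)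
    positivity
  -- the term of one pair
  have hterm : ∀ q ∈ Gq, ∀ r ∈ Gr, f g q * f g r / Dl g q r *
      ∑ n ∈ (Sh g q r).filter (fun n => LkC g i s q r n), Kd g (fun _ _ => 0) q r n ≤
      B * (if LkOm g i s Gq Gr (cofac (inn g s q) (inn g s r)) (cofac (inn g s r) (inn g s q)) then
        ft g s q * ft g s r / Dl g q r else 0) := by
    intro q hq r hr
    have hqV := hVq q hq
    have hrV := hVr r hr
    have hq1 := mem_Icc.1 (hV hqV)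
    have hr1 := mem_Icc.1 (hV hrV)
    have hD0 : 0 < Dl g q r := Dl_pos g hq1.1 hr1.1
    rcases ((Sh g q r).filter (fun n => LkC g i s q r n)).eq_empty_or_nonempty with he | ⟨n, hn⟩
    · rw [he, sum_empty, mul_zero]
      refine mul_nonneg hB0 ?_
      split_ifs
      · exact div_nonneg (mul_nonneg (ft_nonneg _ _) (ft_nonneg _ _)) hD0.le
      · exact le_rfl
    · obtain ⟨hn1, hn2⟩ := mem_filter.1 hn
      have he : (Sh g q r).filter (fun n => LkC g i s q r n) = {n} := by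
        ext m
        rw [mem_singleton]
        constructor
        · intro hm
          exact lk_n_unique his (hGq q hq).2 (hGr r hr).2 (mem_filter.1 hm).2.1.1 hn2.1.1
        · rintro rfl
          exact hn
      have hOm : LkOm g i s Gq Gr (cofac (inn g s q) (inn g s r))
          (cofac (inn g s r) (inn g s q)) := ⟨q, hq, r, hr, n, hn1, hn2, rfl, rfl⟩
      rw [he, sum_singleton, if_pos hOm]
      obtain ⟨m1, m2, g1, g2⟩ := lk_rgh_eq hV hz hs hqV hrV hn2.1.2.2.1 (hVq q₁ hq₁) (hVr r₁ hr₁)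
        hL₁.1.2.2.1 ((hGq q hq).1.trans (hGq q₁ hq₁).1.symm)
        ((hGr r hr).1.trans (hGr r₁ hr₁).1.symm)
      have h1 := hT g hρ hJ hX hV (fun _ _ => 0) (fun _ _ => ⟨le_rfl, zero_le_one⟩) i s q r n
        his.le (hGq1 hq) (hGr1 hr) hn1 hn2.1 hn2.2.1
      rw [g1, g2, ro_of_RgA hV hs (hVq q₁ hq₁) hqV ((hGq q hq).1.trans (hGq q₁ hq₁).1.symm),
        ro_of_RgA hV hs (hVr r₁ hr₁) hrV ((hGr r hr).1.trans (hGr r₁ hr₁).1.symm)] at h1
      refine h1.trans (le_of_eq ?_)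
      rw [hB]
      unfold ft
      rw [ro_of_RgA hV le_rfl (hVq q₁ hq₁) hqV ((hGq q hq).1.trans (hGq q₁ hq₁).1.symm),
        ro_of_RgA hV le_rfl (hVr r₁ hr₁) hrV ((hGr r hr).1.trans (hGr r₁ hr₁).1.symm)]
  have hsum : ∑ q ∈ Gq, ∑ r ∈ Gr.erase q, f g q * f g r / Dl g q r *
      ∑ n ∈ (Sh g q r).filter (fun n => LkC g i s q r n), Kd g (fun _ _ => 0) q r n ≤
      B * ∑ q ∈ Gq, ∑ r ∈ Gr, (if LkOm g i s Gq Gr (cofac (inn g s q) (inn g s r))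
        (cofac (inn g s r) (inn g s q)) then ft g s q * ft g s r / Dl g q r else 0) := by
    rw [mul_sum]
    refine sum_le_sum fun q hq => ?_
    rw [mul_sum]
    refine (sum_le_sum fun r hr => hterm q hq r (mem_of_mem_erase hr)).trans ?_
    refine sum_le_sum_of_subset_of_nonneg (erase_subset _ _) fun r hr _ => ?_
    have hq1 := mem_Icc.1 (hV (hVq q hq))
    have hr1 := mem_Icc.1 (hV (hVr r hr))
    have hD0 : 0 < Dl g q r := Dl_pos g hq1.1 hr1.1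
    refine mul_nonneg hB0 ?_
    split_ifs
    · exact div_nonneg (mul_nonneg (ft_nonneg _ _) (ft_nonneg _ _)) hD0.le
    · exact le_rfl
  refine hsum.trans (le_of_eq ?_)
  rw [grp_eng hV hX1 (fun q hq => ⟨hVq q hq, (hGq q hq).1⟩) (fun r hr => ⟨hVr r hr, (hGr r hr).1⟩)
    hRpos hR'pos]
  obtain ⟨b1, b2⟩ := cofac_Rg_eq hV hz hs (hVq q₁ hq₁) (hVr r₁ hr₁) hL₁.1.2.2.1
  rw [(hGq q₁ hq₁).1, (hGr r₁ hr₁).1] at b1 b2
  rw [b1, b2, ← hal, ← hbe, hB]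
  push_cast
  ring

theorem sqrt_mul_le_of_leA {x y c : ℝ} (hx : 0 ≤ x) (hc : 0 ≤ c) (h : y ≤ c * x) :
    Real.sqrt (x * y) ≤ Real.sqrt c * x := by
  have h1 : x * y ≤ c * (x * x) := by nlinarith
  refine (Real.sqrt_le_sqrt h1).trans (le_of_eq ?_)
  rw [Real.sqrt_mul hc, Real.sqrt_mul_self hx]

theorem rgh_dvd_rghA {x y n : ℕ} (h : x ≤ y) : rgh y n ∣ rgh x n := by
  unfold rgh
  refine prod_dvd_prod_of_subset _ _ _ fun p hp => ?_
  obtain ⟨h1, h2⟩ := mem_filter.1 hp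
  exact mem_filter.2 ⟨h1, lt_of_le_of_lt h h2⟩

theorem Gn_rgh_monoA {x y n : ℕ} (h : x ≤ y) : NT.Gn (rgh y n) ≤ NT.Gn (rgh x n) := by
  obtain ⟨k, hk⟩ := rgh_dvd_rghA (n := n) h
  have hk0 : 0 < k := by
    rcases Nat.eq_zero_or_pos k with rfl | hk0
    · have := rgh_pos_lk x n
      rw [hk] at this
      simp at this
    · exact hk0
  rw [hk]
  exact Gn_mono_left hk0

/-- one half of the right side -/
theorem lk_halfA {A B E oq or ρq ρr S m w : ℝ} (hA : 1 ≤ A) (hB : 1 ≤ B) (hE : 1 ≤ E)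
    (hor : 0 ≤ or) (hρq : 0 < ρq) (hS : 0 ≤ S) (hm : 0 < m)
    (h1 : oq ≤ E * B * or) (h2 : ρr ≤ E * A * ρq) (h3 : or / m ≤ w) :
    (A * B) * Real.sqrt (oq * or) * Real.sqrt (ρq * ρr) * (S / ρq / m) ≤
      E * (A * B) ^ 2 * (S * w) := by
  have a1 : Real.sqrt (oq * or) ≤ Real.sqrt (E * B) * or := by
    rw [mul_comm oq or]
    exact sqrt_mul_le_of_leA hor (by positivity) h1
  have a2 : Real.sqrt (ρq * ρr) ≤ Real.sqrt (E * A) * ρq :=
    sqrt_mul_le_of_leA hρq.le (by positivity) h2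
  have hAB : 1 ≤ A * B := one_le_mul_of_one_le_of_one_le hA hB
  have a3 : Real.sqrt (E * B) * Real.sqrt (E * A) ≤ E * (A * B) := by
    rw [← Real.sqrt_mul (by positivity)]
    apply Real.sqrt_le_iff.2
    refine ⟨by positivity, ?_⟩
    have : E * B * (E * A) = E ^ 2 * (A * B) := by ring
    rw [this, mul_pow]
    refine mul_le_mul_of_nonneg_left ?_ (by positivity)
    nlinarith
  have a4 : Real.sqrt (oq * or) * Real.sqrt (ρq * ρr) ≤ E * (A * B) * (or * ρq) := by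
    calc Real.sqrt (oq * or) * Real.sqrt (ρq * ρr) ≤
        (Real.sqrt (E * B) * or) * (Real.sqrt (E * A) * ρq) :=
          mul_le_mul a1 a2 (Real.sqrt_nonneg _) (by positivity)
      _ = (Real.sqrt (E * B) * Real.sqrt (E * A)) * (or * ρq) := by ring
      _ ≤ _ := mul_le_mul_of_nonneg_right a3 (by positivity)
  have a5 : 0 ≤ S / ρq / m := by positivity
  calc (A * B) * Real.sqrt (oq * or) * Real.sqrt (ρq * ρr) * (S / ρq / m) =
      (A * B) * (Real.sqrt (oq * or) * Real.sqrt (ρq * ρr)) * (S / ρq / m) := by ring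
    _ ≤ (A * B) * (E * (A * B) * (or * ρq)) * (S / ρq / m) :=
        mul_le_mul_of_nonneg_right (mul_le_mul_of_nonneg_left a4 (by positivity)) a5
    _ = E * (A * B) ^ 2 * (S * (or / m)) := by
        field_simp
    _ ≤ _ := mul_le_mul_of_nonneg_left (mul_le_mul_of_nonneg_left h3 hS) (by positivity)

/-- **The right side of the group bound.** -/
theorem lk_right (hJ : JsOK g.K g.Js) (hX : g.Js ≤ g.X) (hV : g.V ⊆ Icc 1 (N g)) {i s : ℕ}
    (his : i < s) {Gq Gr : Finset ℕ} {R R' : ℕ} (hGq1 : Gq ⊆ V1 g) (hGr1 : Gr ⊆ V1 g)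
    (hGq : ∀ q ∈ Gq, Rg g s q = R) (hGr : ∀ r ∈ Gr, Rg g s r = R')
    {q₁ r₁ : ℕ} (hq₁ : q₁ ∈ Gq) (hr₁ : r₁ ∈ Gr) (hc : Clean g (z g i) q₁ r₁) :
    (NT.Gn (rgh (z g s) (rcof (z g i) (N g) (kc g q₁) q₁ r₁)) *
        NT.Gn (rgh (z g s) (rcof (z g i) (N g) (kc g q₁) r₁ q₁))) *
      Real.sqrt (ro (z g i) q₁ * ro (z g i) r₁) * Real.sqrt (ro (z g s) q₁ * ro (z g s) r₁) *
      ((∑ x ∈ Icc 1 (N g), (if R * x ∈ Gq then ft g s (R * x) else 0)) / M g i r₁ +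
        (∑ y ∈ Icc 1 (N g), (if R' * y ∈ Gr then ft g s (R' * y) else 0)) / M g i q₁) ≤
    Real.exp (1 / 2) * (NT.Gn (rgh (z g s) (rcof (z g i) (N g) (kc g q₁) q₁ r₁)) *
        NT.Gn (rgh (z g s) (rcof (z g i) (N g) (kc g q₁) r₁ q₁))) ^ 2 *
      ((∑ q ∈ Gq, f g q) * wdv (xc (PO (z g i) (N g)) (kc g q₁)) (M g i r₁) +
        (∑ r ∈ Gr, f g r) * wdv (xc (PO (z g i) (N g)) (kc g r₁)) (M g i q₁)) := by
  have hz : zs g ≤ z g i := zs_le_z hJ hX i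
  have hs : z g s ≤ z g i := z_anti g his.le
  have hVq : ∀ q ∈ Gq, q ∈ g.V := fun q hq => V1_mem (hGq1 hq)
  have hVr : ∀ r ∈ Gr, r ∈ g.V := fun r hr => V1_mem (hGr1 hr)
  have hE : (1 : ℝ) ≤ Real.exp (1 / 2) := Real.one_le_exp (by norm_num)
  have eq1 : ∑ x ∈ Icc 1 (N g), (if R * x ∈ Gq then ft g s (R * x) else 0) =
      (∑ q ∈ Gq, f g q) / ro (z g s) q₁ := by
    rw [sum_ft hV (fun q hq => ⟨hVq q hq, hGq q hq⟩), sum_div]
    refine sum_congr rfl fun q hq => ?_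
    unfold ft
    rw [ro_of_RgA hV le_rfl (hVq q₁ hq₁) (hVq q hq) ((hGq q hq).trans (hGq q₁ hq₁).symm)]
  have eq2 : ∑ y ∈ Icc 1 (N g), (if R' * y ∈ Gr then ft g s (R' * y) else 0) =
      (∑ r ∈ Gr, f g r) / ro (z g s) r₁ := by
    rw [sum_ft hV (fun r hr => ⟨hVr r hr, hGr r hr⟩), sum_div]
    refine sum_congr rfl fun r hr => ?_
    unfold ft
    rw [ro_of_RgA hV le_rfl (hVr r₁ hr₁) (hVr r hr) ((hGr r hr).trans (hGr r₁ hr₁).symm)]
  rw [eq1, eq2]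
  set A := NT.Gn (rgh (z g s) (rcof (z g i) (N g) (kc g q₁) q₁ r₁)) with hA
  set B := NT.Gn (rgh (z g s) (rcof (z g i) (N g) (kc g q₁) r₁ q₁)) with hB
  have hA1 : 1 ≤ A := one_le_Gn _
  have hB1 : 1 ≤ B := one_le_Gn _
  have k1 : ro (z g i) q₁ ≤ Real.exp (1 / 2) * B * ro (z g i) r₁ := by
    refine (ro_le_ro' hV (x := z g i) hz (hGq1 hq₁) (hGr1 hr₁) hc).trans ?_
    exact mul_le_mul_of_nonneg_right (mul_le_mul_of_nonneg_left (Gn_rgh_monoA hs)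
      (by positivity)) (ro_nonneg _ _)
  have k2 : ro (z g s) r₁ ≤ Real.exp (1 / 2) * A * ro (z g s) q₁ :=
    ro_le_ro hV hz (hGq1 hq₁) (hGr1 hr₁) hc
  have k3 : ro (z g i) r₁ ≤ Real.exp (1 / 2) * A * ro (z g i) q₁ := by
    refine (ro_le_ro hV (x := z g i) hz (hGq1 hq₁) (hGr1 hr₁) hc).trans ?_
    exact mul_le_mul_of_nonneg_right (mul_le_mul_of_nonneg_left (Gn_rgh_monoA hs)
      (by positivity)) (ro_nonneg _ _)
  have k4 : ro (z g s) q₁ ≤ Real.exp (1 / 2) * B * ro (z g s) r₁ :=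
    ro_le_ro' hV hz (hGq1 hq₁) (hGr1 hr₁) hc
  have hMq : (0 : ℝ) < M g i q₁ := by exact_mod_cast M_pos g i q₁
  have hMr : (0 : ℝ) < M g i r₁ := by exact_mod_cast M_pos g i r₁
  have hS1 : 0 ≤ ∑ q ∈ Gq, f g q := sum_nonneg fun q _ => f_nonneg g q
  have hS2 : 0 ≤ ∑ r ∈ Gr, f g r := sum_nonneg fun r _ => f_nonneg g r
  have h1 := lk_halfA (E := Real.exp (1 / 2)) hA1 hB1 hE (ro_nonneg (z g i) r₁)
    (ro_pos (z g s) q₁) hS1 hMr k1 k2
    (ro_div_le_wdv hV hz (hVq q₁ hq₁) (hVr r₁ hr₁) hc)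
  have h2 := lk_halfA (E := Real.exp (1 / 2)) hB1 hA1 hE (ro_nonneg (z g i) q₁)
    (ro_pos (z g s) r₁) hS2 hMq k3 k4
    (ro_div_le_wdv' hV hz (hVq q₁ hq₁) (hVr r₁ hr₁) hc)
  rw [mul_comm B A, mul_comm (ro (z g i) r₁) (ro (z g i) q₁),
    mul_comm (ro (z g s) r₁) (ro (z g s) q₁)] at h2
  rw [mul_add, mul_add]
  exact add_le_add h1 h2

end Vale.P028.SK
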